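import Vale.Agent.Lib.P170.Main

/-!
# P170: restriction of a random formula to a subset of the variables

For `k ≤ n' ≤ n` a satisfiable sequence of proper `k`-clauses on `n` variables stays
satisfiable after deleting the clauses that use a variable outside the first `n'`; the kept
clauses are independent uniform proper clauses on `n'` variables.  This gives the exact
inequality `restrict_ineq`.
-/

set_option linter.unusedSectionVars false

namespace Vale.Agent.Lib.P170.H74

open Finset Vale.Agent.Lib.P170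

/-- Ordered proper clauses on the first `n'` variables, read as clauses on `n` variables. -/
def embOC {k n' n : ℕ} (h : n' ≤ n) (c : OC k (Fin n')) : OC k (Fin n) :=
  ⟨fun i => (Fin.castLE h (c.1 i).1, (c.1 i).2),
    fun _ _ hij => c.2 (Fin.castLE_injective h hij)⟩

lemma embOC_injective {k n' n : ℕ} (h : n' ≤ n) :
    Function.Injective (embOC (k := k) h) := by
  intro c c' hcc
  apply Subtype.ext
  funext i
  have h0 : (Fin.castLE h (c.1 i).1, (c.1 i).2) = (Fin.castLE h (c'.1 i).1, (c'.1 i).2) :=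
    congrFun (congrArg Subtype.val hcc) i
  obtain ⟨h1, h2⟩ := Prod.mk.inj h0
  exact Prod.ext (Fin.castLE_injective h h1) h2

/-- Clauses pushed forward from `n'` variables behave, on all assignments of `n` variables,
like uniform clauses on `n'` variables. -/
lemma gl_emb {k n' n : ℕ} (h : n' ≤ n) (j : ℕ) :
    gl (osat (k := k) (V := Fin n))
        (List.replicate j (push (embOC h) (unif (OC k (Fin n')))))
        (Set.univ : Set (Fin n → Bool)) =
      gl (osat (k := k) (V := Fin n')) (List.replicate j (unif (OC k (Fin n'))))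
        (Set.univ : Set (Fin n' → Bool)) := by
  have e1 := gl_transport_replicate (osat (k := k) (V := Fin n))
    (fun (σ : Fin n → Bool) (c : OC k (Fin n')) => osat (fun v => σ (Fin.castLE h v)) c)
    id (embOC h) (fun _ _ => Iff.rfl) (unif (OC k (Fin n'))) j Set.univ
  rw [Set.image_id] at e1
  have e2 := gl_transport_replicate (osat (k := k) (V := Fin n'))
    (fun (σ : Fin n → Bool) (c : OC k (Fin n')) => osat (fun v => σ (Fin.castLE h v)) c)
    (fun (σ : Fin n → Bool) => fun v => σ (Fin.castLE h v)) id (fun _ _ => Iff.rfl)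
    (unif (OC k (Fin n'))) j Set.univ
  have hsurj : (fun (σ : Fin n → Bool) => fun v : Fin n' => σ (Fin.castLE h v)) '' Set.univ =
      Set.univ := by
    rw [Set.image_univ, Set.range_eq_univ]
    intro τ
    refine ⟨fun i => if hi : (i : ℕ) < n' then τ ⟨i, hi⟩ else false, ?_⟩
    funext v
    simp
  have hpush : push (id : OC k (Fin n') → OC k (Fin n')) (unif (OC k (Fin n'))) =
      unif (OC k (Fin n')) := by
    classical
    funext c
    unfold push
    rw [Finset.sum_eq_single c]
    · intro b hb hbc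
      exact absurd (Finset.mem_filter.mp hb).2 hbc
    · intro hc
      exact (hc (Finset.mem_filter.mpr ⟨Finset.mem_univ c, rfl⟩)).elim
  rw [hsurj, hpush] at e2
  rw [e1, ← e2]

/-- The probability that a uniform ordered proper clause on `n` variables uses only the first
`n'` variables. -/
noncomputable def qq (k n' n : ℕ) : ℝ := (n'.descFactorial k : ℝ) / (n.descFactorial k : ℝ)

lemma qq_nonneg (k n' n : ℕ) : 0 ≤ qq k n' n := by unfold qq; positivity

lemma qq_le_one {k n' n : ℕ} (h : n' ≤ n) (hk : k ≤ n) : qq k n' n ≤ 1 := by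
  unfold qq
  have hpos : (0 : ℝ) < (n.descFactorial k : ℝ) := by
    exact_mod_cast Nat.descFactorial_pos.mpr hk
  rw [div_le_one hpos]
  exact_mod_cast Nat.descFactorial_le k h

lemma emb_dom {k n' n : ℕ} (h : n' ≤ n) (hk : k ≤ n') (c : OC k (Fin n)) :
    qq k n' n * push (embOC h) (unif (OC k (Fin n'))) c ≤ unif (OC k (Fin n)) c := by
  classical
  have hO' : (0 : ℝ) < (n'.descFactorial k : ℝ) := by
    exact_mod_cast Nat.descFactorial_pos.mpr hk
  have hO : (0 : ℝ) < (n.descFactorial k : ℝ) := by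
    exact_mod_cast Nat.descFactorial_pos.mpr (hk.trans h)
  have h1 : push (embOC h) (unif (OC k (Fin n'))) c ≤ (Fintype.card (OC k (Fin n')) : ℝ)⁻¹ := by
    unfold push unif
    rw [Finset.sum_const, nsmul_eq_mul]
    have h0 : (0 : ℝ) ≤ (Fintype.card (OC k (Fin n')) : ℝ)⁻¹ := by positivity
    refine mul_le_of_le_one_left h0 ?_
    rw [Nat.cast_le_one]
    refine Finset.card_le_one.mpr fun a ha b hb => embOC_injective h ?_
    simp only [Finset.mem_filter, Finset.mem_univ, true_and] at ha hb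
    rw [ha, hb]
  have h2 : qq k n' n * (Fintype.card (OC k (Fin n')) : ℝ)⁻¹ = unif (OC k (Fin n)) c := by
    unfold qq unif
    rw [card_OC, card_OC, Fintype.card_fin, Fintype.card_fin]
    push_cast
    have hne' := hO'.ne'
    have hne := hO.ne'
    field_simp
  calc qq k n' n * push (embOC h) (unif (OC k (Fin n'))) c
      ≤ qq k n' n * (Fintype.card (OC k (Fin n')) : ℝ)⁻¹ :=
        mul_le_mul_of_nonneg_left h1 (qq_nonneg _ _ _)
    _ = _ := h2

/-- Restriction inequality: `P_{k,n}(m) ≤ P_{k,n'}(m - s) + Pr[Bin(m, 1 - q) ≥ s + 1]`. -/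
theorem restrict_ineq {k n' n : ℕ} (h : n' ≤ n) (hk : k ≤ n') (m s : ℕ) :
    satProb k n m ≤ satProb k n' (m - s) + tail (1 - qq k n' n) m (s + 1) := by
  rw [satProb_eq_oc, satProb_eq_oc, ← gl_emb h]
  have hne : Nonempty (OC k (Fin n')) := OC_nonempty (by rw [Fintype.card_fin]; exact hk)
  exact mix_upper osat _ _ _ (qq_nonneg _ _ _) (qq_le_one h (hk.trans h))
    (push_nonneg _ _ (fun _ => unif_nonneg _)) (emb_dom h hk)
    (by rw [sum_push, sum_unif]) sum_unif_le m s Set.univ

/-- The probability of leaving the first `n'` variables is at most `k (n - n' + k) / n`. -/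
lemma one_sub_qq_le {k n' n : ℕ} (h : n' ≤ n) (hk : k ≤ n') (hn : 0 < n) :
    1 - qq k n' n ≤ (k : ℝ) * ((n : ℝ) - n' + k) / n := by
  have hnpos : (0 : ℝ) < n := by exact_mod_cast hn
  have hkn' : (k : ℝ) ≤ n' := by exact_mod_cast hk
  have h1 : ((n' + 1 - k : ℕ) : ℝ) ^ k ≤ (n'.descFactorial k : ℝ) := by
    exact_mod_cast Nat.pow_sub_le_descFactorial n' k
  have h2 : ((n' + 1 - k : ℕ) : ℝ) = (n' : ℝ) + 1 - k := by
    rw [Nat.cast_sub (by omega)]; push_cast; ring
  have h3 : (n.descFactorial k : ℝ) ≤ (n : ℝ) ^ k := by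
    exact_mod_cast Nat.descFactorial_le_pow n k
  have hD : (0 : ℝ) < (n.descFactorial k : ℝ) := by
    exact_mod_cast Nat.descFactorial_pos.mpr (hk.trans h)
  have hb0 : 0 ≤ (n' : ℝ) + 1 - k := by linarith
  set a : ℝ := ((n' : ℝ) + 1 - k) / n - 1 with ha
  have hx0 : 0 ≤ ((n' : ℝ) + 1 - k) / n := div_nonneg hb0 hnpos.le
  have h4 : 1 + (k : ℝ) * a ≤ (1 + a) ^ k := one_add_mul_le_pow (by linarith) k
  have h5 : (1 + a) ^ k ≤ qq k n' n := by
    unfold qq
    rw [le_div_iff₀ hD]
    have e : 1 + a = ((n' : ℝ) + 1 - k) / n := by rw [ha]; ring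
    rw [e, div_pow]
    calc ((n' : ℝ) + 1 - k) ^ k / (n : ℝ) ^ k * (n.descFactorial k : ℝ)
        ≤ ((n' : ℝ) + 1 - k) ^ k / (n : ℝ) ^ k * (n : ℝ) ^ k :=
          mul_le_mul_of_nonneg_left h3 (div_nonneg (pow_nonneg hb0 _) (pow_nonneg hnpos.le _))
      _ = ((n' : ℝ) + 1 - k) ^ k := by
          have : (n : ℝ) ^ k ≠ 0 := pow_ne_zero _ hnpos.ne'
          field_simp
      _ ≤ (n'.descFactorial k : ℝ) := by rw [← h2]; exact h1
  have h7 : -((k : ℝ) * a) = (k : ℝ) * ((n : ℝ) - n' + k - 1) / n := by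
    rw [ha]; field_simp; ring
  have h8 : (k : ℝ) * ((n : ℝ) - n' + k - 1) / n ≤ (k : ℝ) * ((n : ℝ) - n' + k) / n :=
    div_le_div_of_nonneg_right
      (mul_le_mul_of_nonneg_left (by linarith) (Nat.cast_nonneg k)) hnpos.le
  linarith

end Vale.Agent.Lib.P170.H74
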