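import Vale.Agent.Lib.P170.helper74.Restrict

/-!
# P170: scale regularity of sharp threshold sequences of random `k`-SAT

* `restrict_reg`: a threshold sequence cannot rise quickly: `r n' ≥ r n - ε` for
  `(1 - δ) n ≤ n' ≤ n`;
* `scale_reg`: it cannot fall noticeably between scales of ratio in `[D, lam]`;
* `long_intervals`: it stays close to any level reached infinitely often on arbitrarily long
  multiplicative intervals.
-/

set_option linter.unusedSectionVars false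

namespace Vale.Agent.Lib.P170.H74

open Finset Vale.Agent.Lib.P170

/-- A threshold sequence cannot rise quickly: passing from `n` variables to `n' ≤ n` variables
with `n' ≥ (1 - δ) n` lowers it by at most `ε`. -/
theorem restrict_reg (k : ℕ) (r : ℕ → ℝ) (hr : IsThresholdSeq k r) (ε : ℝ) (hε : 0 < ε) :
    ∃ δ : ℝ, 0 < δ ∧ δ ≤ 1 / 2 ∧ ∃ N : ℕ, ∀ n n' : ℕ, N ≤ n → (1 - δ) * (n : ℝ) ≤ (n' : ℝ) →
      n' ≤ n → r n - ε ≤ r n' := by
  obtain ⟨C₀, N₀, hC₀⟩ := thr_bdd hr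
  set C : ℝ := max C₀ 0 + 1 with hC
  have hCpos : 0 < C := by have := le_max_right C₀ 0; linarith
  have hC₀C : C₀ ≤ C := by have := le_max_left C₀ 0; linarith
  obtain ⟨N₂, hN₂⟩ := thr_pos hr (ε / 4) (by positivity)
  have hup := (hr (ε / 4) (by positivity)).1
  have hdn := (hr (ε / 4) (by positivity)).2
  obtain ⟨N₃, hN₃⟩ := Filter.eventually_atTop.mp
    (hup.eventually (lt_mem_nhds (show (3 / 4 : ℝ) < 1 by norm_num)))
  obtain ⟨N₄, hN₄⟩ := Filter.eventually_atTop.mp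
    (hdn.eventually (gt_mem_nhds (show (0 : ℝ) < 1 / 4 by norm_num)))
  have hk1pos : (0 : ℝ) < (k : ℝ) + 1 := by positivity
  have hden : (0 : ℝ) < 32 * ((k : ℝ) + 1) * C := by positivity
  set δ : ℝ := min (1 / 2) (ε / (32 * ((k : ℝ) + 1) * C)) with hδ
  have hδ0 : 0 < δ := lt_min (by norm_num) (div_pos hε hden)
  have hδ1 : δ ≤ 1 / 2 := min_le_left _ _
  have hδ2 : δ ≤ ε / (32 * ((k : ℝ) + 1) * C) := min_le_right _ _
  have hδ3 : δ * (32 * ((k : ℝ) + 1) * C) ≤ ε := by rwa [le_div_iff₀ hden] at hδ2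
  set L : ℝ := (2 * ((0 : ℕ) : ℝ) - Real.log ((2 : ℝ) / 8)) * 2 / ((1 / 2 : ℝ) * (ε / 8)) with hL
  refine ⟨δ, hδ0, hδ1,
    2 * (N₀ + N₂ + N₃ + N₄ + k + 1) + ⌈(k : ℝ) / δ⌉₊ + ⌈8 / ε⌉₊ + ⌈L⌉₊,
    fun n n' hn h1 h2 => ?_⟩
  by_contra hcon
  have hcon' : r n' < r n - ε := lt_of_not_ge hcon
  -- sizes
  have hnpos : (0 : ℝ) < n := by
    have : 0 < n := by omega
    exact_mod_cast this
  have hn0 : (n : ℝ) ≠ 0 := hnpos.ne'
  have hkδ : (k : ℝ) / δ ≤ n := by
    have h : ⌈(k : ℝ) / δ⌉₊ ≤ n := by omega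
    exact (Nat.le_ceil _).trans (by exact_mod_cast h)
  have h8ε : 8 / ε ≤ n := by
    have h : ⌈8 / ε⌉₊ ≤ n := by omega
    exact (Nat.le_ceil _).trans (by exact_mod_cast h)
  have hLn : L ≤ n := by
    have h : ⌈L⌉₊ ≤ n := by omega
    exact (Nat.le_ceil _).trans (by exact_mod_cast h)
  have hhalf : (1 / 2 : ℝ) * n ≤ (1 - δ) * n :=
    mul_le_mul_of_nonneg_right (by linarith) hnpos.le
  have hn'half : (n : ℝ) ≤ 2 * (n' : ℝ) := by linarith
  have hn'nat : n ≤ 2 * n' := by exact_mod_cast hn'half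
  have hn'pos : (0 : ℝ) < n' := by
    have : 0 < n' := by omega
    exact_mod_cast this
  have hn'n : (n' : ℝ) ≤ n := by exact_mod_cast h2
  -- thresholds
  have hP : 3 / 4 < satProb k n ⌊(r n - ε / 4) * (n : ℝ)⌋₊ := hN₃ n (by omega)
  have hP' : satProb k n' ⌊(r n' + ε / 4) * (n' : ℝ)⌋₊ < 1 / 4 := hN₄ n' (by omega)
  have hpos' : 0 < (r n' + ε / 4) * (n' : ℝ) := hN₂ n' (by omega)
  have hrn' : 0 < r n' + ε / 4 := by
    by_contra hneg
    have := mul_nonpos_of_nonpos_of_nonneg (le_of_not_gt hneg) hn'pos.le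
    linarith
  have hr34 : 0 < r n - 3 * (ε / 4) := by linarith
  have hrC : r n ≤ C := (hC₀ n (by omega)).trans hC₀C
  set m : ℕ := ⌊(r n - ε / 4) * (n : ℝ)⌋₊ with hm
  set m' : ℕ := ⌊(r n' + ε / 4) * (n' : ℝ)⌋₊ with hm'
  have hm'le : (m' : ℝ) ≤ (r n' + ε / 4) * (n' : ℝ) := Nat.floor_le hpos'.le
  have hm'lt : (m' : ℝ) < (r n - 3 * (ε / 4)) * (n : ℝ) := by
    have e1 : (r n' + ε / 4) * (n' : ℝ) < (r n - 3 * (ε / 4)) * (n' : ℝ) :=
      mul_lt_mul_of_pos_right (by linarith) hn'pos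
    have e2 : (r n - 3 * (ε / 4)) * (n' : ℝ) ≤ (r n - 3 * (ε / 4)) * (n : ℝ) :=
      mul_le_mul_of_nonneg_left hn'n hr34.le
    linarith
  have hmgt : (r n - ε / 4) * (n : ℝ) < (m : ℝ) + 1 := Nat.lt_floor_add_one _
  have hmle : (m : ℝ) ≤ (r n - ε / 4) * (n : ℝ) :=
    Nat.floor_le (mul_nonneg (by linarith) hnpos.le)
  have hεn : 8 ≤ n * ε := by rwa [div_le_iff₀ hε] at h8ε
  have hid : (r n - ε / 4) * (n : ℝ) - (r n - 3 * (ε / 4)) * (n : ℝ) = (n * ε) / 2 := by ring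
  have hgap0 : (n * ε) / 2 < (m : ℝ) + 1 - m' := by linarith
  have hm'm : m' ≤ m := by
    have : (m' : ℝ) < (m : ℝ) := by linarith
    exact_mod_cast this.le
  set s : ℕ := m - m' with hs
  have hms : m - s = m' := by omega
  have hs_cast : (s : ℝ) = (m : ℝ) - m' := by rw [hs, Nat.cast_sub hm'm]
  -- the tail
  have hk' : k ≤ n' := by omega
  have hx0 : 0 ≤ 1 - qq k n' n := sub_nonneg.mpr (qq_le_one h2 (hk'.trans h2))
  have hx1 : 1 - qq k n' n ≤ 1 := by linarith [qq_nonneg k n' n]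
  have hxle : 1 - qq k n' n ≤ (k : ℝ) * ((n : ℝ) - n' + k) / n :=
    one_sub_qq_le h2 hk' (by omega)
  have hmC : (m : ℝ) ≤ C * n :=
    hmle.trans (mul_le_mul_of_nonneg_right (by linarith) hnpos.le)
  have hmx : (m : ℝ) * (1 - qq k n' n) ≤ ε / 8 * n := by
    have hkδn : (k : ℝ) ≤ n * δ := by rwa [div_le_iff₀ hδ0] at hkδ
    have hnn' : (n : ℝ) - n' ≤ n * δ := by
      have : (1 - δ) * (n : ℝ) = n - n * δ := by ring
      linarith
    have e1 : (m : ℝ) * (1 - qq k n' n) ≤ C * n * ((k : ℝ) * ((n : ℝ) - n' + k) / n) :=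
      mul_le_mul hmC hxle hx0 (mul_nonneg hCpos.le hnpos.le)
    have e2 : C * n * ((k : ℝ) * ((n : ℝ) - n' + k) / n) = C * (k : ℝ) * ((n : ℝ) - n' + k) := by
      field_simp
    have e3 : C * (k : ℝ) * ((n : ℝ) - n' + k) ≤ C * (k : ℝ) * (2 * (n * δ)) :=
      mul_le_mul_of_nonneg_left (by linarith) (mul_nonneg hCpos.le (Nat.cast_nonneg k))
    have hnδ : 0 ≤ 2 * ((n : ℝ) * δ) := by
      have := mul_nonneg hnpos.le hδ0.le
      linarith
    have e4 : C * (k : ℝ) * (2 * (n * δ)) ≤ C * ((k : ℝ) + 1) * (2 * (n * δ)) :=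
      mul_le_mul_of_nonneg_right
        (mul_le_mul_of_nonneg_left (by linarith) hCpos.le) hnδ
    have e5 : C * ((k : ℝ) + 1) * (2 * (n * δ)) = (δ * (32 * ((k : ℝ) + 1) * C)) * n / 16 := by
      ring
    have e6 : (δ * (32 * ((k : ℝ) + 1) * C)) * n ≤ ε * n :=
      mul_le_mul_of_nonneg_right hδ3 hnpos.le
    have e7 : 0 < ε * n := mul_pos hε hnpos
    linarith
  have htail : tail (1 - qq k n' n) m (s + 1) ≤ 1 / 4 := by
    have hg : (m : ℝ) * (1 - qq k n' n) + ε / 8 * n ≤ (s : ℝ) + 1 := by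
      rw [hs_cast]
      have e7 : 0 < ε * n := mul_pos hε hnpos
      linarith
    have hch := chern_bound (C := ε / 8) (ε := ε / 8) (θ := 2) (t := 1 / 2) (s := 0)
      (by positivity) (by positivity) (by norm_num) (by norm_num) (by norm_num)
      (le_of_eq (by ring)) (1 - qq k n' n) n m s hx0 hx1 hnpos hLn hmx hg
    have e : (2 : ℝ) / 8 = 1 / 4 := by norm_num
    rw [e] at hch
    exact hch
  have hres := restrict_ineq h2 hk' m s
  rw [hms] at hres
  linarith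

/-- A threshold sequence cannot fall noticeably between scales whose ratio lies in `[D, lam]`. -/
theorem scale_reg (k : ℕ) (r : ℕ → ℝ) (hr : IsThresholdSeq k r) (ε : ℝ) (hε : 0 < ε) :
    ∃ D : ℕ, 1 ≤ D ∧ ∀ lam : ℕ, ∃ N : ℕ, ∀ n n' : ℕ, N ≤ n → D * n ≤ n' → n' ≤ lam * n →
      r n - ε ≤ r n' := by
  obtain ⟨δ, hδ0, hδ1, NR, hR⟩ := restrict_reg k r hr (ε / 2) (by positivity)
  refine ⟨⌈2 / δ⌉₊ + 1, by omega, fun lam => ?_⟩
  have hlam1 : (0 : ℝ) < 2 * ((lam : ℝ) + 1) := by positivity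
  set ε' : ℝ := ε / (2 * ((lam : ℝ) + 1)) with hε'
  have hε'0 : 0 < ε' := div_pos hε hlam1
  obtain ⟨NM, hM⟩ := min_superadditive k r hr ε' hε'0
  refine ⟨NR + 2 * NM + ⌈2 / δ⌉₊ + 2, fun n n' hn hDn hlam => ?_⟩
  have hn0 : 0 < n := by omega
  have hnpos : (0 : ℝ) < n := by exact_mod_cast hn0
  have h2δ : 2 / δ ≤ n := by
    have h : ⌈2 / δ⌉₊ ≤ n := by omega
    exact (Nat.le_ceil _).trans (by exact_mod_cast h)
  have hδn : 2 ≤ n * δ := by rwa [div_le_iff₀ hδ0] at h2δ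
  set a : ℕ := ⌈(1 - δ) * (n : ℝ)⌉₊ with ha
  have h1δ : 0 ≤ (1 - δ) * (n : ℝ) := mul_nonneg (by linarith) hnpos.le
  have hale : (1 - δ) * (n : ℝ) ≤ a := Nat.le_ceil _
  have haub : (a : ℝ) < (1 - δ) * (n : ℝ) + 1 := Nat.ceil_lt_add_one h1δ
  have han : a ≤ n := by
    apply Nat.ceil_le.mpr
    have : (1 - δ) * (n : ℝ) = n - n * δ := by ring
    have := mul_nonneg hnpos.le hδ0.le
    linarith
  have hNMa : NM ≤ a := by
    have h : (NM : ℝ) ≤ a := by
      have h' : 2 * NM ≤ n := by omega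
      have h'' : (2 : ℝ) * NM ≤ n := by exact_mod_cast h'
      have : (1 / 2 : ℝ) * n ≤ (1 - δ) * n :=
        mul_le_mul_of_nonneg_right (by linarith) hnpos.le
      linarith
    exact_mod_cast h
  have key : ∀ j : ℕ, ∀ p : ℕ, (j + 1) * a ≤ p → p ≤ (j + 1) * n →
      r n - ε / 2 - (j : ℝ) * ε' ≤ r p := by
    intro j
    induction j with
    | zero =>
      intro p hp1 hp2
      have hp1' : a ≤ p := by simpa using hp1
      have hp2' : p ≤ n := by simpa using hp2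
      have h := hR n p (by omega) (hale.trans (by exact_mod_cast hp1')) hp2'
      simp only [Nat.cast_zero, zero_mul, sub_zero]
      exact h
    | succ j ih =>
      intro p hp1 hp2
      have hA : (j + 1 + 1) * a = (j + 1) * a + a := by ring
      have hB : (j + 1 + 1) * n = (j + 1) * n + n := by ring
      rw [hA] at hp1
      rw [hB] at hp2
      have hAN : (j + 1) * a ≤ (j + 1) * n := Nat.mul_le_mul_left _ han
      have hAa : a ≤ (j + 1) * a := Nat.le_mul_of_pos_left a (by omega)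
      have hq1 : max a (p - (j + 1) * n) ≤ n := max_le han (by omega)
      have hq2 : max a (p - (j + 1) * n) ≤ p := max_le (by omega) (Nat.sub_le _ _)
      have hq3 : a ≤ max a (p - (j + 1) * n) := le_max_left _ _
      have h1 : (j + 1) * a ≤ p - max a (p - (j + 1) * n) := by
        rcases le_total (p - (j + 1) * n) a with hc | hc
        · rw [max_eq_left hc]; omega
        · rw [max_eq_right hc]; omega
      have h2 : p - max a (p - (j + 1) * n) ≤ (j + 1) * n := by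
        rcases le_total (p - (j + 1) * n) a with hc | hc
        · rw [max_eq_left hc]; omega
        · rw [max_eq_right hc]; omega
      have ihp := ih (p - max a (p - (j + 1) * n)) h1 h2
      have hq' := hR n (max a (p - (j + 1) * n)) (by omega)
        (hale.trans (by exact_mod_cast hq3)) hq1
      have hsum := hM (p - max a (p - (j + 1) * n)) (max a (p - (j + 1) * n))
        (by omega) (by omega)
      rw [Nat.sub_add_cancel hq2] at hsum
      have hjε : 0 ≤ (j : ℝ) * ε' := mul_nonneg (Nat.cast_nonneg j) hε'0.le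
      have hmin : r n - ε / 2 - (j : ℝ) * ε' ≤
          min (r (p - max a (p - (j + 1) * n))) (r (max a (p - (j + 1) * n))) :=
        le_min ihp (by linarith)
      push_cast
      linarith
  -- the number of parts
  have hj1 : n' / n * n ≤ n' := Nat.div_mul_le_self n' n
  have hj2 : n' < (n' / n + 1) * n := by
    have := Nat.lt_mul_div_succ n' hn0
    rw [mul_comm] at this
    exact this
  have hjlam : n' / n ≤ lam := Nat.div_le_of_le_mul (by rw [mul_comm]; exact hlam)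
  have hjD : ⌈2 / δ⌉₊ + 1 ≤ n' / n := by
    have h3 : (⌈2 / δ⌉₊ + 1) * n < (n' / n + 1) * n := lt_of_le_of_lt hDn hj2
    have h4 := Nat.lt_of_mul_lt_mul_right h3
    omega
  have hjreal : 2 / δ ≤ ((n' / n : ℕ) : ℝ) := by
    have h : (⌈2 / δ⌉₊ : ℝ) ≤ ((n' / n : ℕ) : ℝ) := by
      exact_mod_cast (by omega : ⌈2 / δ⌉₊ ≤ n' / n)
    exact (Nat.le_ceil _).trans h
  have hjδ : 2 ≤ ((n' / n : ℕ) : ℝ) * δ := by rwa [div_le_iff₀ hδ0] at hjreal
  have hja : (n' / n + 1) * a ≤ n' := by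
    have hreal : (((n' / n : ℕ) : ℝ) + 1) * a ≤ n' := by
      have hj1' : ((n' / n : ℕ) : ℝ) * n ≤ n' := by exact_mod_cast hj1
      have hjnn : (0 : ℝ) ≤ ((n' / n : ℕ) : ℝ) := Nat.cast_nonneg _
      have e1 : (((n' / n : ℕ) : ℝ) + 1) * a ≤
          (((n' / n : ℕ) : ℝ) + 1) * ((1 - δ) * n + 1) :=
        mul_le_mul_of_nonneg_left haub.le (by linarith)
      have e3 : (n : ℝ) * δ / 2 ≤ n * δ - 1 := by linarith
      have e4 : ((n' / n : ℕ) : ℝ) * ((n : ℝ) * δ / 2) ≤ ((n' / n : ℕ) : ℝ) * (n * δ - 1) :=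
        mul_le_mul_of_nonneg_left e3 hjnn
      have e5 : (2 : ℝ) * n ≤ ((n' / n : ℕ) : ℝ) * δ * n :=
        mul_le_mul_of_nonneg_right hjδ hnpos.le
      have e6 : ((n' / n : ℕ) : ℝ) * ((n : ℝ) * δ / 2) = ((n' / n : ℕ) : ℝ) * δ * n / 2 := by
        ring
      have hid : (((n' / n : ℕ) : ℝ) + 1) * ((1 - δ) * n + 1) =
          ((n' / n : ℕ) : ℝ) * n + n - ((n' / n : ℕ) : ℝ) * (n * δ - 1) - (n * δ - 1) := by
        ring
      linarith
    exact_mod_cast hreal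
  have hfin := key (n' / n) n' hja hj2.le
  have hjε : ((n' / n : ℕ) : ℝ) * ε' ≤ ε / 2 := by
    have h1 : ((n' / n : ℕ) : ℝ) ≤ lam := by exact_mod_cast hjlam
    have h2 : ((n' / n : ℕ) : ℝ) * ε' ≤ (lam : ℝ) * ε' :=
      mul_le_mul_of_nonneg_right h1 hε'0.le
    have h3 : (lam : ℝ) * ε' ≤ ε / 2 := by
      have e : (lam : ℝ) * ε' = ε / 2 * ((lam : ℝ) / ((lam : ℝ) + 1)) := by
        rw [hε']; field_simp
      have hfrac : (lam : ℝ) / ((lam : ℝ) + 1) ≤ 1 := by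
        rw [div_le_one (by positivity)]; linarith
      rw [e]
      have := mul_le_mul_of_nonneg_left hfrac (by positivity : (0 : ℝ) ≤ ε / 2)
      linarith
    linarith
  linarith

/-- A threshold sequence stays close to any level it reaches infinitely often on arbitrarily
long multiplicative intervals. -/
theorem long_intervals (k : ℕ) (r : ℕ → ℝ) (hr : IsThresholdSeq k r) (c : ℝ)
    (hc : ∃ᶠ n in Filter.atTop, c ≤ r n) (ε : ℝ) (hε : 0 < ε) (lam N₀ : ℕ) :
    ∃ A : ℕ, N₀ ≤ A ∧ ∀ n : ℕ, A ≤ n → n ≤ lam * A → c - ε ≤ r n := by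
  obtain ⟨D, hD1, hS⟩ := scale_reg k r hr ε hε
  obtain ⟨N, hN⟩ := hS (lam * D)
  obtain ⟨n, hn, hcn⟩ := (Filter.frequently_atTop.mp hc) (max N N₀)
  refine ⟨D * n, ?_, fun n' h1 h2 => ?_⟩
  · calc N₀ ≤ n := (le_max_right _ _).trans hn
      _ ≤ D * n := Nat.le_mul_of_pos_left n (by omega)
  · have := hN n n' ((le_max_left _ _).trans hn) h1 (by rw [mul_assoc]; exact h2)
    linarith

end Vale.Agent.Lib.P170.H74
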