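import Vale.Agent.Lib.P170.helper74.Scale

/-!
# P170: a threshold sequence is determined by any subsequence of bounded ratios

Let `a : ℕ → ℕ` be strictly increasing with `a (j + 1) ≤ L * a j` (for example `a j = 2 ^ j`).

* `subseq_high`, `subseq_low`: a threshold sequence `r` and its subsequence `r ∘ a` have the
  same upper and lower limits (values reached infinitely often transfer, up to `ε`);
* `subseq_tendsto`: if `r (a j) → α` then `r n → α`;
* `thr_subseq_tendsto`: a limiting threshold `α` along `a` forces `r (a j) → α`;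
* `lim_threshold_of_tendsto`: if `r n → α` then `α` is a limiting threshold;
* `lim_threshold_of_subseq`: a limiting threshold along `a` is a limiting threshold.
-/

namespace Vale.Agent.Lib.P170.H74

open Filter Vale.Agent.Lib.P170

/-- For a strictly increasing `a` and `1 ≤ D`, every `n ≥ D * a 0` lies in some interval
`[D * a j, D * a (j + 1))`. -/
theorem idx_below {a : ℕ → ℕ} (ha : StrictMono a) {D : ℕ} (hD : 1 ≤ D) (n : ℕ)
    (hn : D * a 0 ≤ n) : ∃ j, D * a j ≤ n ∧ n < D * a (j + 1) := by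
  classical
  have hspec : D * a (Nat.findGreatest (fun j => D * a j ≤ n) n) ≤ n :=
    Nat.findGreatest_spec (P := fun j => D * a j ≤ n) (Nat.zero_le n) hn
  refine ⟨Nat.findGreatest (fun j => D * a j ≤ n) n, hspec, ?_⟩
  by_contra hlt
  rw [not_lt] at hlt
  have hj1 : Nat.findGreatest (fun j => D * a j ≤ n) n + 1 ≤ n := by
    have h1 : Nat.findGreatest (fun j => D * a j ≤ n) n + 1 ≤
        a (Nat.findGreatest (fun j => D * a j ≤ n) n + 1) := ha.id_le _
    have h2 : a (Nat.findGreatest (fun j => D * a j ≤ n) n + 1) ≤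
        D * a (Nat.findGreatest (fun j => D * a j ≤ n) n + 1) :=
      Nat.le_mul_of_pos_left _ (by omega)
    omega
  exact Nat.findGreatest_is_greatest (P := fun j => D * a j ≤ n) (Nat.lt_succ_self _) hj1 hlt

/-- For a strictly increasing `a`, the least index `j` with `M ≤ a j`. -/
theorem idx_above {a : ℕ → ℕ} (ha : StrictMono a) (M : ℕ) :
    ∃ j, M ≤ a j ∧ (j = 0 ∨ a (j - 1) < M) := by
  classical
  have hex : ∃ j, M ≤ a j := ⟨M, ha.id_le M⟩
  refine ⟨Nat.find hex, Nat.find_spec hex, ?_⟩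
  by_cases h0 : Nat.find hex = 0
  · exact Or.inl h0
  · right
    have := Nat.find_min hex (m := Nat.find hex - 1) (by omega)
    exact not_le.mp this

/-- Values of `r` reached infinitely often are reached, up to `ε`, infinitely often along `a`. -/
theorem subseq_high (k : ℕ) (r : ℕ → ℝ) (hr : IsThresholdSeq k r) (a : ℕ → ℕ) (L : ℕ)
    (ha : StrictMono a) (hL : ∀ j, a (j + 1) ≤ L * a j) (c : ℝ)
    (hc : ∃ᶠ n in atTop, c ≤ r n) (ε : ℝ) (hε : 0 < ε) :
    ∃ᶠ j in atTop, c - ε ≤ r (a j) := by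
  obtain ⟨D, hD1, hS⟩ := scale_reg k r hr ε hε
  obtain ⟨N, hN⟩ := hS (L * D)
  rw [frequently_atTop]
  intro J
  obtain ⟨n, hn, hcn⟩ := (frequently_atTop.mp hc) (max N (a J + 1))
  have hnN : N ≤ n := (le_max_left _ _).trans hn
  have hnJ : a J + 1 ≤ n := (le_max_right _ _).trans hn
  obtain ⟨j, hj1, hj2⟩ := idx_above ha (D * n)
  have hnDn : n ≤ D * n := Nat.le_mul_of_pos_left n (by omega)
  have hJj : J < j := by
    have : a J < a j := by omega
    exact ha.lt_iff_lt.mp this
  have hj0 : j ≠ 0 := by omega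
  have hprev : a (j - 1) < D * n := by
    rcases hj2 with h | h
    · exact absurd h hj0
    · exact h
  have hup : a j ≤ L * D * n := by
    have h1 : a j ≤ L * a (j - 1) := by
      have := hL (j - 1)
      rwa [Nat.sub_add_cancel (by omega : 1 ≤ j)] at this
    calc a j ≤ L * a (j - 1) := h1
      _ ≤ L * (D * n) := Nat.mul_le_mul_left L hprev.le
      _ = L * D * n := by ring
  refine ⟨j, hJj.le, ?_⟩
  have := hN n (a j) hnN hj1 hup
  linarith

/-- Low values of `r` taken infinitely often are taken, up to `ε`, infinitely often along `a`. -/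
theorem subseq_low (k : ℕ) (r : ℕ → ℝ) (hr : IsThresholdSeq k r) (a : ℕ → ℕ) (L : ℕ)
    (ha : StrictMono a) (hL : ∀ j, a (j + 1) ≤ L * a j) (c : ℝ)
    (hc : ∃ᶠ n in atTop, r n ≤ c) (ε : ℝ) (hε : 0 < ε) :
    ∃ᶠ j in atTop, r (a j) ≤ c + ε := by
  obtain ⟨D, hD1, hS⟩ := scale_reg k r hr ε hε
  obtain ⟨N, hN⟩ := hS (D * L)
  rw [frequently_atTop]
  intro J
  obtain ⟨n, hn, hcn⟩ := (frequently_atTop.mp hc) (D * a (J + N + 1))
  have h0 : D * a 0 ≤ n := by
    have : a 0 ≤ a (J + N + 1) := ha.monotone (Nat.zero_le _)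
    exact (Nat.mul_le_mul_left D this).trans hn
  obtain ⟨j, hj1, hj2⟩ := idx_below ha hD1 n h0
  have hlt : a (J + N + 1) < a (j + 1) := by
    have : D * a (J + N + 1) < D * a (j + 1) := lt_of_le_of_lt hn hj2
    exact lt_of_mul_lt_mul_left this (Nat.zero_le D)
  have hjJ : J + N + 1 < j + 1 := ha.lt_iff_lt.mp hlt
  have hNj : N ≤ a j := by
    have hjj : j ≤ a j := ha.id_le j
    omega
  have hup : n ≤ D * L * a j := by
    calc n ≤ D * a (j + 1) := hj2.le
      _ ≤ D * (L * a j) := Nat.mul_le_mul_left D (hL j)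
      _ = D * L * a j := by ring
  refine ⟨j, by omega, ?_⟩
  have := hN (a j) n hNj hj1 hup
  linarith

/-- If a threshold sequence converges along a subsequence of bounded ratios, it converges. -/
theorem subseq_tendsto (k : ℕ) (r : ℕ → ℝ) (hr : IsThresholdSeq k r) (a : ℕ → ℕ) (L : ℕ)
    (ha : StrictMono a) (hL : ∀ j, a (j + 1) ≤ L * a j) (α : ℝ)
    (hlim : Tendsto (fun j => r (a j)) atTop (nhds α)) : Tendsto r atTop (nhds α) := by
  rw [tendsto_order]
  constructor
  · intro b hb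
    by_contra h
    rw [not_eventually] at h
    have hf : ∃ᶠ n in atTop, r n ≤ b := h.mono (fun n hn => not_lt.mp hn)
    have hlow := subseq_low k r hr a L ha hL b hf ((α - b) / 2) (by linarith)
    have hev : ∀ᶠ j in atTop, b + (α - b) / 2 < r (a j) :=
      hlim.eventually (lt_mem_nhds (by linarith))
    obtain ⟨j, h1, h2⟩ := (hlow.and_eventually hev).exists
    linarith
  · intro b hb
    by_contra h
    rw [not_eventually] at h
    have hf : ∃ᶠ n in atTop, b ≤ r n := h.mono (fun n hn => not_lt.mp hn)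
    have hhigh := subseq_high k r hr a L ha hL b hf ((b - α) / 2) (by linarith)
    have hev : ∀ᶠ j in atTop, r (a j) < b - (b - α) / 2 :=
      hlim.eventually (gt_mem_nhds (by linarith))
    obtain ⟨j, h1, h2⟩ := (hhigh.and_eventually hev).exists
    linarith

/-- A limiting threshold `α` along a subsequence `a` forces `r (a j) → α`. -/
theorem thr_subseq_tendsto (k : ℕ) (r : ℕ → ℝ) (hr : IsThresholdSeq k r) (a : ℕ → ℕ)
    (ha : StrictMono a) (α : ℝ)
    (h1 : ∀ c : ℝ, c < α →
      Tendsto (fun j => satProb k (a j) ⌊c * (a j : ℝ)⌋₊) atTop (nhds 1))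
    (h0 : ∀ c : ℝ, α < c →
      Tendsto (fun j => satProb k (a j) ⌊c * (a j : ℝ)⌋₊) atTop (nhds 0)) :
    Tendsto (fun j => r (a j)) atTop (nhds α) := by
  have hat : Tendsto a atTop atTop := ha.tendsto_atTop
  rw [tendsto_order]
  constructor
  · intro b hb
    by_contra h
    rw [not_eventually] at h
    have hf : ∃ᶠ j in atTop, r (a j) ≤ b := h.mono (fun n hn => not_lt.mp hn)
    have hε0 : 0 < (α - b) / 4 := by linarith
    have hcα : (α + b) / 2 < α := by linarith
    have hdn : Tendsto (fun j => satProb k (a j) ⌊(r (a j) + (α - b) / 4) * (a j : ℝ)⌋₊)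
        atTop (nhds 0) := (hr ((α - b) / 4) hε0).2.comp hat
    have hup := h1 ((α + b) / 2) hcα
    have e1 : ∀ᶠ j in atTop, (1 : ℝ) / 2 < satProb k (a j) ⌊(α + b) / 2 * (a j : ℝ)⌋₊ :=
      hup.eventually (lt_mem_nhds (by norm_num))
    have e2 : ∀ᶠ j in atTop,
        satProb k (a j) ⌊(r (a j) + (α - b) / 4) * (a j : ℝ)⌋₊ < 1 / 2 :=
      hdn.eventually (gt_mem_nhds (by norm_num))
    obtain ⟨j, hj, hj1, hj2⟩ := (hf.and_eventually (e1.and e2)).exists
    have hle : ⌊(r (a j) + (α - b) / 4) * (a j : ℝ)⌋₊ ≤ ⌊(α + b) / 2 * (a j : ℝ)⌋₊ := by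
      apply Nat.floor_le_floor
      apply mul_le_mul_of_nonneg_right _ (Nat.cast_nonneg _)
      linarith
    have := satProb_antitone k (a j) hle
    linarith
  · intro b hb
    by_contra h
    rw [not_eventually] at h
    have hf : ∃ᶠ j in atTop, b ≤ r (a j) := h.mono (fun n hn => not_lt.mp hn)
    have hε0 : 0 < (b - α) / 4 := by linarith
    have hcα : α < (α + b) / 2 := by linarith
    have hup : Tendsto (fun j => satProb k (a j) ⌊(r (a j) - (b - α) / 4) * (a j : ℝ)⌋₊)
        atTop (nhds 1) := (hr ((b - α) / 4) hε0).1.comp hat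
    have hdn := h0 ((α + b) / 2) hcα
    have e1 : ∀ᶠ j in atTop,
        (1 : ℝ) / 2 < satProb k (a j) ⌊(r (a j) - (b - α) / 4) * (a j : ℝ)⌋₊ :=
      hup.eventually (lt_mem_nhds (by norm_num))
    have e2 : ∀ᶠ j in atTop, satProb k (a j) ⌊(α + b) / 2 * (a j : ℝ)⌋₊ < 1 / 2 :=
      hdn.eventually (gt_mem_nhds (by norm_num))
    obtain ⟨j, hj, hj1, hj2⟩ := (hf.and_eventually (e1.and e2)).exists
    have hle : ⌊(α + b) / 2 * (a j : ℝ)⌋₊ ≤ ⌊(r (a j) - (b - α) / 4) * (a j : ℝ)⌋₊ := by
      apply Nat.floor_le_floor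
      apply mul_le_mul_of_nonneg_right _ (Nat.cast_nonneg _)
      linarith
    have := satProb_antitone k (a j) hle
    linarith

/-- If a threshold sequence converges to `α`, then `α` is a limiting threshold. -/
theorem lim_threshold_of_tendsto (k : ℕ) (r : ℕ → ℝ) (hr : IsThresholdSeq k r) (α : ℝ)
    (hlim : Tendsto r atTop (nhds α)) :
    (∀ c : ℝ, c < α → Tendsto (fun n : ℕ => satProb k n ⌊c * (n : ℝ)⌋₊) atTop (nhds 1)) ∧
    (∀ c : ℝ, α < c → Tendsto (fun n : ℕ => satProb k n ⌊c * (n : ℝ)⌋₊) atTop (nhds 0)) := by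
  constructor
  · intro c hc
    have hε0 : 0 < (α - c) / 2 := by linarith
    have hup := (hr ((α - c) / 2) hε0).1
    have hev : ∀ᶠ n in atTop, c + (α - c) / 2 < r n :=
      hlim.eventually (lt_mem_nhds (by linarith))
    refine tendsto_of_tendsto_of_tendsto_of_le_of_le' hup tendsto_const_nhds ?_ ?_
    · filter_upwards [hev] with n hn
      apply satProb_antitone
      apply Nat.floor_le_floor
      apply mul_le_mul_of_nonneg_right _ (Nat.cast_nonneg _)
      linarith
    · exact Eventually.of_forall (fun n => satProb_le_one k n _)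
  · intro c hc
    have hε0 : 0 < (c - α) / 2 := by linarith
    have hdn := (hr ((c - α) / 2) hε0).2
    have hev : ∀ᶠ n in atTop, r n < c - (c - α) / 2 :=
      hlim.eventually (gt_mem_nhds (by linarith))
    refine tendsto_of_tendsto_of_tendsto_of_le_of_le' tendsto_const_nhds hdn ?_ ?_
    · exact Eventually.of_forall (fun n => satProb_nonneg k n _)
    · filter_upwards [hev] with n hn
      apply satProb_antitone
      apply Nat.floor_le_floor
      apply mul_le_mul_of_nonneg_right _ (Nat.cast_nonneg _)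
      linarith

/-- A limiting threshold along a subsequence of bounded ratios is a limiting threshold. -/
theorem lim_threshold_of_subseq (k : ℕ) (r : ℕ → ℝ) (hr : IsThresholdSeq k r) (a : ℕ → ℕ)
    (L : ℕ) (ha : StrictMono a) (hL : ∀ j, a (j + 1) ≤ L * a j) (α : ℝ)
    (h1 : ∀ c : ℝ, c < α →
      Tendsto (fun j => satProb k (a j) ⌊c * (a j : ℝ)⌋₊) atTop (nhds 1))
    (h0 : ∀ c : ℝ, α < c →
      Tendsto (fun j => satProb k (a j) ⌊c * (a j : ℝ)⌋₊) atTop (nhds 0)) :
    (∀ c : ℝ, c < α → Tendsto (fun n : ℕ => satProb k n ⌊c * (n : ℝ)⌋₊) atTop (nhds 1)) ∧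
    (∀ c : ℝ, α < c → Tendsto (fun n : ℕ => satProb k n ⌊c * (n : ℝ)⌋₊) atTop (nhds 0)) :=
  lim_threshold_of_tendsto k r hr α
    (subseq_tendsto k r hr a L ha hL α (thr_subseq_tendsto k r hr a ha α h1 h0))

/-- The same with the hypothesis on satisfiable densities asked only for `0 ≤ c < α`, as in the
definition of a limiting threshold. -/
theorem lim_threshold_of_subseq_nonneg (k : ℕ) (r : ℕ → ℝ) (hr : IsThresholdSeq k r)
    (a : ℕ → ℕ) (L : ℕ) (ha : StrictMono a) (hL : ∀ j, a (j + 1) ≤ L * a j) (α : ℝ)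
    (h1 : ∀ c : ℝ, 0 ≤ c → c < α →
      Tendsto (fun j => satProb k (a j) ⌊c * (a j : ℝ)⌋₊) atTop (nhds 1))
    (h0 : ∀ c : ℝ, α < c →
      Tendsto (fun j => satProb k (a j) ⌊c * (a j : ℝ)⌋₊) atTop (nhds 0)) :
    (∀ c : ℝ, c < α → Tendsto (fun n : ℕ => satProb k n ⌊c * (n : ℝ)⌋₊) atTop (nhds 1)) ∧
    (∀ c : ℝ, α < c → Tendsto (fun n : ℕ => satProb k n ⌊c * (n : ℝ)⌋₊) atTop (nhds 0)) := by
  refine lim_threshold_of_subseq k r hr a L ha hL α (fun c hc => ?_) h0
  by_cases h : 0 ≤ c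
  · exact h1 c h hc
  · have hz : ∀ j, satProb k (a j) ⌊c * (a j : ℝ)⌋₊ = 1 := by
      intro j
      have hneg : c * (a j : ℝ) ≤ 0 :=
        mul_nonpos_of_nonpos_of_nonneg (le_of_not_ge h) (Nat.cast_nonneg _)
      rw [Nat.floor_of_nonpos hneg, satProb_zero]
    simp only [hz]
    exact tendsto_const_nhds

end Vale.Agent.Lib.P170.H74
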